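import Mathlib

/-!
Mod 2 chains on lists of points and a combinatorial Borsuk-Ulam / Ky Fan theorem.
A simplex is a list of points, a cochain is a function on lists with values in `ZMod 2`,
a chain is a list of simplices.
-/

namespace Vale.Agent.Lib.H7KyFan

variable {X : Type*} {Y : Type*}

/-- `cup f φ l` is the sum over positions `i` of `f (l i) * φ (l without position i)`. -/
def cup (f : X → ZMod 2) : (List X → ZMod 2) → List X → ZMod 2
  | _, [] => 0
  | φ, x :: l => f x * φ l + cup f (fun t => φ (x :: t)) l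

@[simp] lemma cup_nil (f : X → ZMod 2) (φ : List X → ZMod 2) : cup f φ [] = 0 := rfl

lemma cup_cons (f : X → ZMod 2) (φ : List X → ZMod 2) (x : X) (l : List X) :
    cup f φ (x :: l) = f x * φ l + cup f (fun t => φ (x :: t)) l := rfl

lemma two_eq (a : ZMod 2) : a + a = 0 := by
  revert a; decide

lemma cup_congr {f g : X → ZMod 2} {l : List X} : ∀ {φ ψ : List X → ZMod 2},
    (∀ x ∈ l, f x = g x) → (∀ t, t.Sublist l → t.length + 1 = l.length → φ t = ψ t) →
    cup f φ l = cup g ψ l := by
  induction l with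
  | nil => intros; rfl
  | cons x l ih =>
    intro φ ψ h1 h2
    rw [cup_cons, cup_cons, h1 x (by simp), h2 l (by simp) (by simp)]
    congr 1
    apply ih
    · intro y hy; exact h1 y (by simp [hy])
    · intro t ht hl
      exact h2 _ (ht.cons_cons x) (by simp [hl])

lemma cup_add_left (f g : X → ZMod 2) (l : List X) : ∀ φ : List X → ZMod 2,
    cup (fun x => f x + g x) φ l = cup f φ l + cup g φ l := by
  induction l with
  | nil => intro φ; simp
  | cons x l ih => intro φ; simp only [cup_cons, ih]; ring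

lemma cup_add_right (f : X → ZMod 2) (l : List X) : ∀ φ ψ : List X → ZMod 2,
    cup f (fun t => φ t + ψ t) l = cup f φ l + cup f ψ l := by
  induction l with
  | nil => intro φ ψ; simp
  | cons x l ih =>
    intro φ ψ
    simp only [cup_cons]
    rw [ih (fun t => φ (x :: t)) (fun t => ψ (x :: t))]; ring

lemma cup_mul_right (f : X → ZMod 2) (c : ZMod 2) (l : List X) : ∀ φ : List X → ZMod 2,
    cup f (fun t => c * φ t) l = c * cup f φ l := by
  induction l with
  | nil => intro φ; simp
  | cons x l ih =>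
    intro φ
    simp only [cup_cons]
    rw [ih (fun t => φ (x :: t))]; ring

lemma cup_mul_left (f : X → ZMod 2) (c : ZMod 2) (l : List X) : ∀ φ : List X → ZMod 2,
    cup (fun x => c * f x) φ l = c * cup f φ l := by
  induction l with
  | nil => intro φ; simp
  | cons x l ih =>
    intro φ
    simp only [cup_cons]
    rw [ih (fun t => φ (x :: t))]; ring

lemma cup_zero_right (f : X → ZMod 2) (l : List X) : cup f (fun _ => 0) l = 0 := by
  induction l with
  | nil => rfl
  | cons x l ih => simp only [cup_cons, ih]; ring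

lemma cup_zero_left (l : List X) : ∀ φ : List X → ZMod 2, cup (fun _ => 0) φ l = 0 := by
  induction l with
  | nil => intro φ; rfl
  | cons x l ih => intro φ; simp only [cup_cons, ih]; ring

lemma cup_eq_zero_of_left {f : X → ZMod 2} {l : List X} (φ : List X → ZMod 2)
    (h : ∀ x ∈ l, f x = 0) : cup f φ l = 0 := by
  rw [← cup_zero_left l φ]
  exact cup_congr h (fun _ _ _ => rfl)

lemma cup_eq_zero_of_right (f : X → ZMod 2) {l : List X} {φ : List X → ZMod 2}
    (h : ∀ t, t.Sublist l → t.length + 1 = l.length → φ t = 0) : cup f φ l = 0 := by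
  rw [← cup_zero_right f l]
  exact cup_congr (fun _ _ => rfl) h

lemma cup_cup_cons (f g : X → ZMod 2) (φ : List X → ZMod 2) (x : X) (l : List X) :
    cup f (cup g φ) (x :: l) = f x * cup g φ l + g x * cup f φ l +
      cup f (cup g (fun t => φ (x :: t))) l := by
  rw [cup_cons]
  have : (fun t => cup g φ (x :: t)) =
      fun t => g x * φ t + cup g (fun s => φ (x :: s)) t := by
    funext t; rfl
  rw [this, cup_add_right, cup_mul_right]; ring

lemma cup_comm (f g : X → ZMod 2) (l : List X) : ∀ φ : List X → ZMod 2,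
    cup f (cup g φ) l = cup g (cup f φ) l := by
  induction l with
  | nil => intro φ; rfl
  | cons x l ih => intro φ; rw [cup_cup_cons, cup_cup_cons, ih]; ring

lemma cup_self (f : X → ZMod 2) (l : List X) : ∀ φ : List X → ZMod 2,
    cup f (cup f φ) l = 0 := by
  induction l with
  | nil => intro φ; rfl
  | cons x l ih => intro φ; rw [cup_cup_cons, ih, two_eq]; ring

lemma cup_orth {f g : X → ZMod 2} {l : List X} (φ : List X → ZMod 2)
    (h : ∀ x ∈ l, ∀ y ∈ l, f x * g y = 0) : cup f (cup g φ) l = 0 := by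
  by_cases hf : ∀ x ∈ l, f x = 0
  · exact cup_eq_zero_of_left _ hf
  · push Not at hf
    obtain ⟨x, hx, hfx⟩ := hf
    apply cup_eq_zero_of_right
    intro t ht _
    apply cup_eq_zero_of_left
    intro y hy
    exact (mul_eq_zero.1 (h x hx y (ht.subset hy))).resolve_left hfx

lemma cup_map (f : Y → ZMod 2) (g : X → Y) (l : List X) : ∀ φ : List Y → ZMod 2,
    cup f φ (l.map g) = cup (fun x => f (g x)) (fun t => φ (t.map g)) l := by
  induction l with
  | nil => intro φ; rfl
  | cons x l ih => intro φ; simp only [List.map_cons, cup_cons, ih]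

lemma cup_ne_zero {f : X → ZMod 2} {l : List X} {φ : List X → ZMod 2} (h : cup f φ l ≠ 0) :
    ∃ x ∈ l, ∃ t, t.Sublist l ∧ t.length + 1 = l.length ∧ f x ≠ 0 ∧ φ t ≠ 0 := by
  have h1 : ¬ ∀ x ∈ l, f x = 0 := fun h1 => h (cup_eq_zero_of_left _ h1)
  have h2 : ¬ ∀ t, t.Sublist l → t.length + 1 = l.length → φ t = 0 :=
    fun h2 => h (cup_eq_zero_of_right _ h2)
  push Not at h1 h2
  obtain ⟨x, hx, hfx⟩ := h1
  obtain ⟨t, ht, hl, hφ⟩ := h2
  exact ⟨x, hx, t, ht, hl, hfx, hφ⟩

lemma cup_sum_left {ι : Type*} (s : Finset ι) (f : ι → X → ZMod 2) (φ : List X → ZMod 2)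
    (l : List X) : cup (fun x => ∑ i ∈ s, f i x) φ l = ∑ i ∈ s, cup (f i) φ l := by
  classical
  induction s using Finset.induction_on with
  | empty => simp [cup_zero_left]
  | insert a s ha ih => simp only [Finset.sum_insert ha]; rw [cup_add_left, ih]

/-- The coboundary. -/
def cob (φ : List X → ZMod 2) : List X → ZMod 2 := cup (fun _ => 1) φ

lemma cob_cons (φ : List X → ZMod 2) (x : X) (l : List X) :
    cob φ (x :: l) = φ l + cob (fun t => φ (x :: t)) l := by
  simp [cob, cup_cons]

lemma cob_map (g : X → Y) (l : List X) (φ : List Y → ZMod 2) :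
    cob φ (l.map g) = cob (fun t => φ (t.map g)) l := cup_map _ g l φ

lemma cob_add (l : List X) (φ ψ : List X → ZMod 2) :
    cob (fun t => φ t + ψ t) l = cob φ l + cob ψ l := cup_add_right _ l φ ψ

/-- Evaluation of a cochain on a chain. -/
def ev (z : List (List X)) (φ : List X → ZMod 2) : ZMod 2 := (z.map φ).sum

@[simp] lemma ev_nil (φ : List X → ZMod 2) : ev [] φ = 0 := rfl

lemma ev_cons (s : List X) (z : List (List X)) (φ : List X → ZMod 2) :
    ev (s :: z) φ = φ s + ev z φ := by simp [ev]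

lemma ev_append (z w : List (List X)) (φ : List X → ZMod 2) :
    ev (z ++ w) φ = ev z φ + ev w φ := by simp [ev]

lemma ev_map (z : List (List X)) (g : List X → List Y) (φ : List Y → ZMod 2) :
    ev (z.map g) φ = ev z (fun s => φ (g s)) := by
  simp [ev, List.map_map, Function.comp_def]

lemma ev_add (z : List (List X)) (φ ψ : List X → ZMod 2) :
    ev z (fun s => φ s + ψ s) = ev z φ + ev z ψ := by
  induction z with
  | nil => simp
  | cons s z ih => simp only [ev_cons, ih]; ring

lemma ev_congr {z : List (List X)} {φ ψ : List X → ZMod 2} (h : ∀ s ∈ z, φ s = ψ s) :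
    ev z φ = ev z ψ := by
  unfold ev; rw [List.map_congr_left h]

lemma ev_zero (z : List (List X)) : ev z (fun _ => 0) = 0 := by simp [ev]

lemma ev_mul (z : List (List X)) (c : ZMod 2) (φ : List X → ZMod 2) :
    ev z (fun s => c * φ s) = c * ev z φ := by
  induction z with
  | nil => simp
  | cons s z ih => simp only [ev_cons, ih]; ring

lemma ev_flatMap (z : List (List X)) (g : List X → List (List Y)) (φ : List Y → ZMod 2) :
    ev (z.flatMap g) φ = ev z (fun s => ev (g s) φ) := by
  induction z with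
  | nil => simp
  | cons s z ih => simp only [List.flatMap_cons, ev_append, ev_cons, ih]

lemma ev_ne_zero {z : List (List X)} {φ : List X → ZMod 2} (h : ev z φ ≠ 0) :
    ∃ s ∈ z, φ s ≠ 0 := by
  by_contra hc
  push Not at hc
  exact h (by rw [ev_congr hc, ev_zero])

/-- The prism between the images of a simplex under two maps. -/
def prism (f g : X → Y) : List X → List (List Y)
  | [] => []
  | x :: l => (f x :: g x :: l.map g) :: (prism f g l).map (fun s => f x :: s)

lemma prism_eq (f g : X → Y) (l : List X) : ∀ φ : List Y → ZMod 2,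
    ev (prism f g l) (cob φ) + cob (fun s => ev (prism f g s) φ) l =
      φ (l.map f) + φ (l.map g) := by
  induction l with
  | nil => intro φ; simp [prism, cob, two_eq]
  | cons x l ih =>
    intro φ
    have h1 := ih (fun s => φ (f x :: s))
    simp only [prism, ev_cons, ev_map, cob_cons, List.map_cons, ev_add]
    rw [cob_add, ← cob_map g l (fun s => φ (f x :: g x :: s))]
    have e1 := two_eq (ev (prism f g l) φ)
    have e2 := two_eq (cob (fun t => φ (f x :: g x :: t)) (List.map g l))
    have e3 := two_eq (φ (f x :: List.map g l))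
    linear_combination h1 + e1 + e2 + e3

lemma prism_mem (f g : X → Y) (l : List X) : ∀ s ∈ prism f g l,
    s.length = l.length + 1 ∧ ∀ y ∈ s, ∃ x ∈ l, y = f x ∨ y = g x := by
  induction l with
  | nil => simp [prism]
  | cons x l ih =>
    intro s hs
    simp only [prism, List.mem_cons, List.mem_map] at hs
    rcases hs with rfl | ⟨t, ht, rfl⟩
    · refine ⟨by simp, ?_⟩
      intro y hy
      simp only [List.mem_cons, List.mem_map] at hy
      rcases hy with rfl | rfl | ⟨u, hu, rfl⟩
      · exact ⟨x, by simp, Or.inl rfl⟩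
      · exact ⟨x, by simp, Or.inr rfl⟩
      · exact ⟨u, by simp [hu], Or.inr rfl⟩
    · obtain ⟨h1, h2⟩ := ih t ht
      refine ⟨by simp [h1], ?_⟩
      intro y hy
      rcases List.mem_cons.1 hy with rfl | hy
      · exact ⟨x, by simp, Or.inl rfl⟩
      · obtain ⟨u, hu, h⟩ := h2 y hy
        exact ⟨u, by simp [hu], h⟩

/-- The chain swept out by `z` under the maps `H 0, H 1, ..., H k`. -/
def sweep (H : ℕ → X → Y) (z : List (List X)) : ℕ → List (List Y)
  | 0 => []
  | k + 1 => sweep H z k ++ z.flatMap (prism (H k) (H (k + 1)))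

lemma sweep_eq (H : ℕ → X → Y) (z : List (List X)) (hz : ∀ φ, ev z (cob φ) = 0)
    (φ : List Y → ZMod 2) (k : ℕ) :
    ev (sweep H z k) (cob φ) =
      ev z (fun s => φ (s.map (H 0))) + ev z (fun s => φ (s.map (H k))) := by
  induction k with
  | zero => simp [sweep, two_eq]
  | succ k ih =>
    rw [sweep, ev_append, ih, ev_flatMap]
    have h1 : ev z (fun s => ev (prism (H k) (H (k + 1)) s) (cob φ)) +
        ev z (cob (fun s => ev (prism (H k) (H (k + 1)) s) φ)) =
        ev z (fun s => φ (s.map (H k))) + ev z (fun s => φ (s.map (H (k + 1)))) := by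
      rw [← ev_add, ← ev_add]
      exact ev_congr (fun s _ => prism_eq _ _ s φ)
    rw [hz, add_zero] at h1
    rw [h1]
    linear_combination two_eq (ev z (fun s => φ (s.map (H k))))

lemma sweep_mem (H : ℕ → X → Y) (z : List (List X)) (k : ℕ) : ∀ s ∈ sweep H z k,
    ∃ i < k, ∃ l ∈ z, s.length = l.length + 1 ∧ ∀ y ∈ s, ∃ x ∈ l, y = H i x ∨ y = H (i + 1) x := by
  induction k with
  | zero => simp [sweep]
  | succ k ih =>
    intro s hs
    rw [sweep, List.mem_append] at hs
    rcases hs with hs | hs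
    · obtain ⟨i, hi, h⟩ := ih s hs
      exact ⟨i, by omega, h⟩
    · obtain ⟨l, hl, hs⟩ := List.mem_flatMap.1 hs
      exact ⟨k, by omega, l, hl, prism_mem _ _ l s hs⟩


section Sphere

variable {M : ℕ}

/-- Small simplices on the boundary of the cross-polytope. -/
def Good (η : ℝ) (s : List (Fin M → ℝ)) : Prop :=
  (∀ x ∈ s, ∑ i, |x i| = 1) ∧ ∀ x ∈ s, ∀ y ∈ s, dist x y ≤ η

lemma Good.sublist {η : ℝ} {s t : List (Fin M → ℝ)} (h : Good η s) (ht : t.Sublist s) :
    Good η t :=
  ⟨fun x hx => h.1 x (ht.subset hx), fun x hx y hy => h.2 x (ht.subset hx) y (ht.subset hy)⟩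

lemma Good.mono {η η' : ℝ} {s : List (Fin M → ℝ)} (h : Good η s) (hη : η ≤ η') : Good η' s :=
  ⟨h.1, fun x hx y hy => (h.2 x hx y hy).trans hη⟩

lemma Good.neg {η : ℝ} {s : List (Fin M → ℝ)} (h : Good η s) : Good η (s.map Neg.neg) := by
  constructor
  · intro x hx
    obtain ⟨y, hy, rfl⟩ := List.mem_map.1 hx
    simpa using h.1 y hy
  · intro x hx x' hx'
    obtain ⟨y, hy, rfl⟩ := List.mem_map.1 hx
    obtain ⟨y', hy', rfl⟩ := List.mem_map.1 hx'
    simpa using h.2 y hy y' hy'

/-- The Ky Fan property of a chain. -/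
def KF (η : ℝ) (z : List (List (Fin M → ℝ))) : Prop :=
  ∀ A : ZMod 2 → List (Fin M → ℝ) → ZMod 2, (∀ b, A b [] = 1) →
    (∀ b s, Good η s → A b (s.map Neg.neg) = A (b + 1) s) →
    (∀ b s, Good η s → cob (A b) s = A b s + A (b + 1) s) → ∀ b, ev z (A b) = 1

lemma double_chain {η : ℝ} {z h : List (List (Fin M → ℝ))} (hG : ∀ s ∈ h, Good η s)
    (hb : ∀ φ, ev h (cob φ) = ev z φ)
    (hsym : ∀ φ : List (Fin M → ℝ) → ZMod 2, ev z (fun s => φ (s.map Neg.neg)) = ev z φ)
    (hK : KF η z) :
    (∀ φ, ev (h ++ h.map (fun s => s.map Neg.neg)) (cob φ) = 0) ∧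
    (∀ φ : List (Fin M → ℝ) → ZMod 2,
      ev (h ++ h.map (fun s => s.map Neg.neg)) (fun s => φ (s.map Neg.neg)) =
        ev (h ++ h.map (fun s => s.map Neg.neg)) φ) ∧
    ev (h ++ h.map (fun s => s.map Neg.neg)) (fun _ => 1) = 0 ∧
    KF η (h ++ h.map (fun s => s.map Neg.neg)) := by
  refine ⟨?_, ?_, ?_, ?_⟩
  · intro φ
    rw [ev_append, ev_map, hb]
    simp only [cob_map]
    rw [hb, hsym, two_eq]
  · intro φ
    simp only [ev_append, ev_map, List.map_map]
    have : (Neg.neg ∘ Neg.neg : (Fin M → ℝ) → (Fin M → ℝ)) = id := by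
      funext x; simp
    simp only [this, List.map_id]
    ring
  · rw [ev_append, ev_map, two_eq]
  · intro A h0 h1 h2 b
    rw [ev_append, ev_map, ← ev_add, ← hK A h0 h1 h2 b, ← hb]
    apply ev_congr
    intro s hs
    rw [h1 b s (hG s hs), h2 b s (hG s hs)]

lemma exists_chain_aux {θ η : ℝ} (hθ : 0 < θ) (j : ℕ) (hj : j < M) (hη : j * θ ≤ η) :
    ∃ z : List (List (Fin M → ℝ)),
      (∀ s ∈ z, s.length = j + 1 ∧ Good (j * θ) s ∧ ∀ x ∈ s, ∀ i : Fin M, j < i.val → x i = 0) ∧
      (∀ φ, ev z (cob φ) = 0) ∧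
      (∀ φ : List (Fin M → ℝ) → ZMod 2, ev z (fun s => φ (s.map Neg.neg)) = ev z φ) ∧
      ev z (fun _ => 1) = 0 ∧ KF η z := by
  have hsingle : ∀ k : Fin M, ∑ i, |(Pi.single k (1 : ℝ) : Fin M → ℝ) i| = 1 := by
    intro k
    rw [Finset.sum_eq_single k]
    · simp
    · intro i _ hi; simp [hi]
    · simp
  have key : ∀ (j : ℕ) (z h : List (List (Fin M → ℝ))), (j : ℝ) * θ ≤ η →
      (∀ s ∈ h, s.length = j + 1 ∧ Good (j * θ) s ∧ ∀ x ∈ s, ∀ i : Fin M, j < i.val → x i = 0) →
      (∀ φ, ev h (cob φ) = ev z φ) →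
      (∀ φ : List (Fin M → ℝ) → ZMod 2, ev z (fun s => φ (s.map Neg.neg)) = ev z φ) →
      KF η z → ∃ z : List (List (Fin M → ℝ)),
      (∀ s ∈ z, s.length = j + 1 ∧ Good (j * θ) s ∧ ∀ x ∈ s, ∀ i : Fin M, j < i.val → x i = 0) ∧
      (∀ φ, ev z (cob φ) = 0) ∧
      (∀ φ : List (Fin M → ℝ) → ZMod 2, ev z (fun s => φ (s.map Neg.neg)) = ev z φ) ∧
      ev z (fun _ => 1) = 0 ∧ KF η z := by
    intro j z h hη hh hb hsym hK
    refine ⟨_, ?_, double_chain (fun s hs => (hh s hs).2.1.mono hη) hb hsym hK⟩
    intro s hs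
    rcases List.mem_append.1 hs with hs | hs
    · exact hh s hs
    · obtain ⟨t, ht, rfl⟩ := List.mem_map.1 hs
      obtain ⟨h1, h2, h3⟩ := hh t ht
      refine ⟨by simpa using h1, h2.neg, ?_⟩
      intro x hx i hi
      obtain ⟨y, hy, rfl⟩ := List.mem_map.1 hx
      simp [h3 y hy i hi]
  induction j with
  | zero =>
    apply key 0 [[]] [[Pi.single ⟨0, hj⟩ 1]] hη
    · intro s hs
      rw [List.mem_singleton] at hs
      subst hs
      refine ⟨rfl, ⟨?_, ?_⟩, ?_⟩
      · intro x hx
        rw [List.mem_singleton] at hx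
        subst hx
        exact hsingle _
      · intro x hx y hy
        rw [List.mem_singleton] at hx hy
        subst hx hy
        simp
      · intro x hx i hi
        rw [List.mem_singleton] at hx
        subst hx
        have : i ≠ ⟨0, hj⟩ := by
          intro h; subst h; simp at hi
        simp [this]
    · intro φ; simp [ev, cob, cup_cons]
    · intro φ; simp [ev]
    · intro A h0 _ _ b; simp [ev, h0]
  | succ j ih =>
    have hη' : (j : ℝ) * θ ≤ η := by
      refine le_trans ?_ hη
      push_cast; nlinarith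
    obtain ⟨z, hz, hcyc, hsym, hev, hK⟩ := ih (by omega) hη'
    obtain ⟨n, hn⟩ := exists_nat_gt (2 / θ)
    have hnpos : (0 : ℝ) < n := lt_trans (by positivity) hn
    have hstep : 2 / (n : ℝ) ≤ θ := by
      rw [div_le_iff₀ hnpos]; rw [div_lt_iff₀ hθ] at hn; linarith
    set e : Fin M → ℝ := Pi.single ⟨j + 1, hj⟩ 1 with he
    set H : ℕ → (Fin M → ℝ) → (Fin M → ℝ) :=
      fun k x => (1 - (k : ℝ) / n) • x + ((k : ℝ) / n) • e with hH
    have hH1 : ∀ k : ℕ, k ≤ n → ∀ x : Fin M → ℝ, ∑ i, |x i| = 1 →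
        (∀ i : Fin M, j < i.val → x i = 0) →
        ∑ i, |H k x i| = 1 ∧ ∀ i : Fin M, j + 1 < i.val → H k x i = 0 := by
      intro k hk x hx hx0
      have ht0 : (0 : ℝ) ≤ (k : ℝ) / n := by positivity
      have ht1 : (k : ℝ) / n ≤ 1 := by
        rw [div_le_one hnpos]; exact_mod_cast hk
      constructor
      · have : ∀ i, |H k x i| = (1 - (k : ℝ) / n) * |x i| + ((k : ℝ) / n) * |e i| := by
          intro i
          by_cases hi : i = ⟨j + 1, hj⟩
          · subst hi
            simp [hH, he, hx0 ⟨j + 1, hj⟩ (by simp), abs_of_nonneg ht0]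
          · simp [hH, he, hi, abs_mul, abs_of_nonneg (sub_nonneg.2 ht1)]
        simp only [this, Finset.sum_add_distrib, ← Finset.mul_sum, hx, he, hsingle]
        ring
      · intro i hi
        have hi' : i ≠ ⟨j + 1, hj⟩ := by
          intro h; subst h; simp at hi
        simp [hH, he, hi', hx0 i (by omega)]
    have hnorm : ∀ x : Fin M → ℝ, ∑ i, |x i| = 1 → ‖x‖ ≤ 1 := by
      intro x hx
      refine (pi_norm_le_iff_of_nonneg zero_le_one).2 fun i => ?_
      rw [← hx, Real.norm_eq_abs]
      exact Finset.single_le_sum (f := fun i => |x i|) (fun i _ => abs_nonneg _)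
        (Finset.mem_univ i)
    have hH2 : ∀ k k' : ℕ, k ≤ n → |(k : ℝ) - k'| ≤ 1 → ∀ x y : Fin M → ℝ,
        ∑ i, |y i| = 1 → dist x y ≤ j * θ → dist (H k x) (H k' y) ≤ (j + 1 : ℕ) * θ := by
      intro k k' hk hkk x y hy hxy
      have ht0 : (0 : ℝ) ≤ (k : ℝ) / n := by positivity
      have ht1 : (k : ℝ) / n ≤ 1 := by
        rw [div_le_one hnpos]; exact_mod_cast hk
      have : H k x - H k' y = (1 - (k : ℝ) / n) • (x - y) + (((k : ℝ) - k') / n) • (e - y) := by
        simp only [hH, sub_div]
        module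
      rw [dist_eq_norm, this]
      refine (norm_add_le _ _).trans ?_
      rw [norm_smul, norm_smul, Real.norm_eq_abs, Real.norm_eq_abs,
        abs_of_nonneg (sub_nonneg.2 ht1), abs_div, abs_of_pos hnpos, ← dist_eq_norm]
      have h1 : ‖e - y‖ ≤ 2 := by
        refine (norm_sub_le _ _).trans ?_
        have := hnorm e (hsingle _)
        have := hnorm y hy
        linarith
      have h2 : |(k : ℝ) - k'| / n * ‖e - y‖ ≤ θ := by
        refine le_trans ?_ hstep
        rw [div_mul_eq_mul_div]
        gcongr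
        nlinarith [abs_nonneg ((k : ℝ) - k'), norm_nonneg (e - y)]
      have h3 : (1 - (k : ℝ) / n) * dist x y ≤ j * θ := by
        nlinarith [dist_nonneg (x := x) (y := y)]
      push_cast
      linarith
    apply key (j + 1) z (sweep H z n) hη _ _ hsym hK
    · intro s hs
      obtain ⟨i, hi, l, hl, hlen, hmem⟩ := sweep_mem H z n s hs
      obtain ⟨hl1, hl2, hl3⟩ := hz l hl
      refine ⟨by omega, ⟨?_, ?_⟩, ?_⟩
      · intro y hy
        obtain ⟨x, hx, h | h⟩ := hmem y hy
        · rw [h]; exact (hH1 i (by omega) x (hl2.1 x hx) (hl3 x hx)).1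
        · rw [h]; exact (hH1 (i + 1) (by omega) x (hl2.1 x hx) (hl3 x hx)).1
      · intro y hy y' hy'
        obtain ⟨x, hx, h | h⟩ := hmem y hy <;> obtain ⟨x', hx', h' | h'⟩ := hmem y' hy' <;>
          rw [h, h'] <;>
          refine hH2 _ _ (by omega) ?_ x x' (hl2.1 x' hx') (hl2.2 x hx x' hx') <;> simp
      · intro y hy
        obtain ⟨x, hx, h | h⟩ := hmem y hy
        · rw [h]; exact (hH1 i (by omega) x (hl2.1 x hx) (hl3 x hx)).2
        · rw [h]; exact (hH1 (i + 1) (by omega) x (hl2.1 x hx) (hl3 x hx)).2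
    · intro φ
      rw [sweep_eq H z hcyc]
      have h0 : H 0 = id := by funext x; simp [hH]
      have hn' : ∀ x, H n x = e := by
        intro x; simp [hH, div_self hnpos.ne']
      have : ev z (fun s => φ (s.map (H n))) =
          ev z (fun _ => φ (List.replicate (j + 1) e) * 1) := by
        apply ev_congr
        intro s hs
        rw [mul_one, ← (hz s hs).1]
        congr 1
        rw [List.eq_replicate_iff]
        refine ⟨by simp, ?_⟩
        intro b hb
        obtain ⟨x, _, rfl⟩ := List.mem_map.1 hb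
        exact hn' x
      rw [this, ev_mul, hev, h0]
      simp

/-- A fundamental cycle of the boundary of the cross-polytope made of small simplices. -/
theorem exists_chain (m : ℕ) {η : ℝ} (hη : 0 < η) :
    ∃ z : List (List (Fin (m + 1) → ℝ)),
      (∀ s ∈ z, s.length = m + 1 ∧ Good η s) ∧ (∀ φ, ev z (cob φ) = 0) ∧ KF η z := by
  have hθ : 0 < η / (m + 1) := by positivity
  have hle : (m : ℝ) * (η / (m + 1)) ≤ η := by
    rw [← mul_div_assoc, div_le_iff₀ (by positivity)]; nlinarith
  obtain ⟨z, h1, h2, -, -, h3⟩ := exists_chain_aux (M := m + 1) hθ m (by omega) hle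
  exact ⟨z, fun s hs => ⟨(h1 s hs).1, (h1 s hs).2.1.mono hle⟩, h2, h3⟩

end Sphere

section Alt

variable {ι : Type*} [DecidableEq ι]

/-- Indicator of the label `(i, b)`. -/
def ind (c : X → ι) (σ : X → ZMod 2) (i : ι) (b : ZMod 2) (x : X) : ZMod 2 :=
  if c x = i ∧ σ x = b then 1 else 0

/-- Indicator of the empty list. -/
def eps : List X → ZMod 2
  | [] => 1
  | _ :: _ => 0

/-- The alternating cochain of Ky Fan. -/
def alt (c : X → ι) (σ : X → ZMod 2) : List ι → ZMod 2 → List X → ZMod 2
  | [], _ => eps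
  | i :: L, b => fun l => alt c σ L b l + cup (ind c σ i b) (alt c σ L (b + 1)) l

lemma alt_nil (c : X → ι) (σ : X → ZMod 2) (L : List ι) : ∀ b, alt c σ L b [] = 1 := by
  induction L with
  | nil => intro b; rfl
  | cons i L ih => intro b; simp [alt, ih]

lemma eps_map (g : X → Y) (l : List X) : eps (l.map g) = eps l := by
  cases l <;> rfl

lemma add_one_one (b : ZMod 2) : b + 1 + 1 = b := by revert b; decide

lemma alt_map (c : X → ι) (σ : X → ZMod 2) (ν : X → X) (L : List ι) :
    ∀ (b : ZMod 2) (l : List X), (∀ x ∈ l, c (ν x) = c x ∧ σ (ν x) = σ x + 1) →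
      alt c σ L b (l.map ν) = alt c σ L (b + 1) l := by
  induction L with
  | nil => intro b l _; exact eps_map _ _
  | cons i L ih =>
    intro b l hl
    simp only [alt]
    rw [ih b l hl, cup_map]
    congr 1
    apply cup_congr
    · intro x hx
      obtain ⟨h1, h2⟩ := hl x hx
      have : σ x + 1 = b ↔ σ x = b + 1 := by
        generalize σ x = u; revert u b; decide
      simp only [ind, h1, h2, this]
    · intro t ht _
      exact ih (b + 1) t (fun x hx => hl x (ht.subset hx))

lemma alt_cup (c : X → ι) (σ : X → ZMod 2) (L : List ι) (hL : L.Nodup) :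
    ∀ (b : ZMod 2) (l : List X), (∀ x ∈ l, ∀ y ∈ l, c x = c y → σ x = σ y) →
      cup (fun x => if c x ∈ L then 1 else 0) (alt c σ L b) l =
        alt c σ L b l + alt c σ L (b + 1) l := by
  induction L with
  | nil => intro b l _; simp [alt, cup_zero_left, two_eq]
  | cons i L ih =>
    intro b l hl
    obtain ⟨hi, hL'⟩ := List.nodup_cons.1 hL
    have hu : (fun x => if c x ∈ i :: L then (1 : ZMod 2) else 0) =
        fun x => (ind c σ i b x + ind c σ i (b + 1) x) + (if c x ∈ L then 1 else 0) := by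
      funext x
      by_cases h : c x = i
      · have h' : c x ∉ L := by rw [h]; exact hi
        simp only [ind, h, List.mem_cons, true_or, if_true, true_and, hi, if_false]
        generalize σ x = u; revert u b; decide
      · simp [ind, h]
    have horth : cup (ind c σ i (b + 1)) (cup (ind c σ i b) (alt c σ L (b + 1))) l = 0 := by
      apply cup_orth
      intro x hx y hy
      simp only [ind]
      split_ifs with h1 h2 <;> try simp
      have := hl x hx y hy (h1.1.trans h2.1.symm)
      rw [h1.2, h2.2] at this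
      revert this; generalize b = u; revert u; decide
    have h3 : cup (fun x => if c x ∈ L then (1 : ZMod 2) else 0)
        (cup (ind c σ i b) (alt c σ L (b + 1))) l =
        cup (ind c σ i b) (alt c σ L (b + 1)) l + cup (ind c σ i b) (alt c σ L b) l := by
      rw [cup_comm, ← cup_add_right]
      apply cup_congr (fun _ _ => rfl)
      intro t ht _
      rw [ih hL' (b + 1) t (fun x hx y hy => hl x (ht.subset hx) y (ht.subset hy)), add_one_one]
    rw [hu]
    simp only [alt]
    rw [cup_add_left, cup_add_left, cup_add_right, cup_add_right, cup_add_right, cup_self, horth,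
      h3, ih hL' b l hl, add_one_one]
    linear_combination two_eq (cup (ind c σ i b) (alt c σ L b) l)

lemma alt_ne_zero (c : X → ι) (σ : X → ZMod 2) (L : List ι) :
    ∀ (b : ZMod 2) (l : List X), alt c σ L b l ≠ 0 →
      ∃ s : List X, s.length = l.length ∧ (∀ x ∈ s, x ∈ l) ∧ (s.map c).Sublist L ∧
        ∀ (r : ℕ) (hr : r < s.length), σ s[r] = b + r := by
  induction L with
  | nil =>
    intro b l h
    cases l with
    | nil => exact ⟨[], rfl, by simp, by simp, by simp⟩
    | cons x l => exact absurd rfl h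
  | cons i L ih =>
    intro b l h
    by_cases h1 : alt c σ L b l = 0
    · simp only [alt, h1, zero_add] at h
      obtain ⟨x, hx, t, ht, hlen, hfx, hφ⟩ := cup_ne_zero h
      obtain ⟨s, hs1, hs2, hs3, hs4⟩ := ih (b + 1) t hφ
      have hx' : c x = i ∧ σ x = b := by
        by_contra hc; exact hfx (by simp [ind, hc])
      refine ⟨x :: s, by simp [hs1, hlen], ?_, ?_, ?_⟩
      · intro y hy
        rcases List.mem_cons.1 hy with rfl | hy
        · exact hx
        · exact ht.subset (hs2 y hy)
      · rw [List.map_cons, hx'.1]; exact hs3.cons_cons i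
      · intro r hr
        cases r with
        | zero => simp [hx'.2]
        | succ r =>
          have := hs4 r (by simpa using hr)
          simp only [List.getElem_cons_succ, this]
          push_cast; ring
    · obtain ⟨s, hs1, hs2, hs3, hs4⟩ := ih b l h1
      exact ⟨s, hs1, hs2, hs3.cons i, hs4⟩

lemma alt_long (c : X → ι) (σ : X → ZMod 2) (L : List ι) (b : ZMod 2) (l : List X)
    (h : L.length < l.length) : alt c σ L b l = 0 := by
  by_contra hc
  obtain ⟨s, hs1, -, hs3, -⟩ := alt_ne_zero c σ L b l hc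
  have := hs3.length_le
  simp at this; omega

/-- Iterated cup product of a list of functions. -/
def cups : List (X → ZMod 2) → List X → ZMod 2
  | [] => eps
  | f :: F => cup f (cups F)

/-- Ky Fan: the alternating cochain evaluates to one. -/
theorem KF.alt_eq {M : ℕ} {η : ℝ} {z : List (List (Fin M → ℝ))} (hK : KF η z)
    (c : (Fin M → ℝ) → ι) (σ : (Fin M → ℝ) → ZMod 2) (L : List ι) (hL : L.Nodup)
    (hmem : ∀ x, ∑ i, |x i| = 1 → c x ∈ L)
    (hodd : ∀ x, ∑ i, |x i| = 1 → c (-x) = c x ∧ σ (-x) = σ x + 1)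
    (hnc : ∀ x y, ∑ i, |x i| = 1 → ∑ i, |y i| = 1 → dist x y ≤ η → c x = c y → σ x = σ y)
    (b : ZMod 2) : ev z (alt c σ L b) = 1 := by
  apply hK (alt c σ L) (alt_nil c σ L)
  · intro b s hs
    exact alt_map c σ _ L b s (fun x hx => hodd x (hs.1 x hx))
  · intro b s hs
    rw [← alt_cup c σ L hL b s
      (fun x hx y hy => hnc x y (hs.1 x hx) (hs.1 y hy) (hs.2 x hx y hy))]
    apply cup_congr _ (fun _ _ _ => rfl)
    intro x hx
    simp [hmem x (hs.1 x hx)]

end Alt

end Vale.Agent.Lib.H7KyFan
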